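import Vale.Agent.P155.HT426.Cov
import Vale.Agent.P155.T802.Cap

/-!
# P155, TIGHT, (S3): signs

Unsigned-invariant functions, and the second moment of `h(f)` for unsigned-invariant random `f`:
`E Q h(f)² = E Q ∑_L (∑ f over the interior of L)²`.
-/

namespace Vale.Agent.P155.T905

open Finset SW HT

variable {V : Finset Pt} {ω ω' : Conf}

/-- the two configurations have the same superposition (with multiplicities) -/
def UEq (ω ω' : Conf) : Prop :=
  ∀ a, (ω'.1 a = ω.1 a ∧ ω'.2 a = ω.2 a) ∨ (ω'.1 a = ω.2 a ∧ ω'.2 a = ω.1 a)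

/-- a function of the superposition only, on `DD V` -/
def UInv {α : Type*} (V : Finset Pt) (g : Conf → α) : Prop :=
  ∀ ω ∈ DD V, ∀ ω' ∈ DD V, UEq ω ω' → g ω' = g ω

theorem uEq_swap (S : Set Pt) (ω : Conf) : UEq ω (swapOn S ω) := by
  intro a
  by_cases h : a ∈ S
  · exact Or.inr ⟨swapOn_fst_mem h, swapOn_snd_mem h⟩
  · exact Or.inl ⟨swapOn_fst_not h, swapOn_snd_not h⟩

theorem uinv_swap {α : Type*} {g : Conf → α} (hg : UInv V g) (hω : ω ∈ DD V) {S : Set Pt}
    (hS : HT.Cl ω S) : g (swapOn S ω) = g ω :=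
  hg ω hω _ (swap_mem hω hS) (uEq_swap S ω)

open Classical in
/-- mass of `f` inside the loop `L` -/
noncomputable def mass (ω : Conf) (f : Pt → ℝ) (L : Set Pt) : ℝ :=
  ∑ᶠ x : Pt, f x * (if surr ω L x then 1 else 0)

theorem mass_swap (S : Set Pt) (ω : Conf) (f : Pt → ℝ) (L : Set Pt) :
    mass (swapOn S ω) f L = mass ω f L := by
  unfold mass
  rw [surr_swap]

open Classical in
theorem mass_eq_sum {f : Pt → ℝ} {s : Finset Pt} (hf : ∀ x, x ∉ s → f x = 0) (ω : Conf)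
    (L : Set Pt) : mass ω f L = ∑ x ∈ s, f x * (if surr ω L x then 1 else 0) := by
  unfold mass
  apply finsum_eq_sum_of_support_subset
  intro x hx
  by_contra h
  exact hx (by simp [hf x (by exact_mod_cast h)])

theorem hf_eq_sum' {f : Pt → ℝ} {s : Finset Pt} (hf' : ∀ x, x ∉ s → f x = 0) (ω : Conf) :
    hf ω f = ∑ x ∈ s, f x * (h ω x : ℝ) := by
  unfold hf
  apply finsum_eq_sum_of_support_subset
  intro x hx
  by_contra h
  exact hx (by simp [hf' x (by exact_mod_cast h)])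

/-- `h(f)` is the sum over the loops of the signed masses -/
theorem hf_eq_mass (hω : ω ∈ DD V) {f : Pt → ℝ} (hfin : f.support.Finite) :
    hf ω f = ∑ L ∈ LF ω, (sign ω L : ℝ) * mass ω f L := by
  classical
  have h0 : ∀ x, x ∉ hfin.toFinset → f x = 0 := by
    intro x hx
    by_contra h
    exact hx (by simpa using h)
  rw [hf_eq_sum' h0]
  have e1 : ∀ x ∈ hfin.toFinset, f x * (h ω x : ℝ) =
      ∑ L ∈ LF ω, (sign ω L : ℝ) * (f x * (if surr ω L x then 1 else 0)) := by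
    intro x _
    have : h ω x = ∑ L ∈ LF ω, (if surr ω L x then sign ω L else 0) := by
      rw [h_eq_sum hω]
      refine Finset.sum_congr rfl fun L hL => ?_
      rw [hL_eq_sign hω ((mem_LF hω).1 hL)]
    rw [this]
    push_cast
    rw [Finset.mul_sum]
    refine Finset.sum_congr rfl fun L _ => ?_
    split_ifs <;> simp [mul_comm]
  rw [Finset.sum_congr rfl e1, Finset.sum_comm]
  refine Finset.sum_congr rfl fun L _ => ?_
  rw [mass_eq_sum h0, Finset.mul_sum]

theorem sum_cross (Q : Conf → ℝ) (f g : Conf → Pt → ℝ) (hQ : UInv V Q) (hf' : UInv V f)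
    (hg' : UInv V g) :
    ∑ ω ∈ DD V, ∑ p ∈ ((LF ω) ×ˢ (LF ω)).filter (fun p => p.1 ≠ p.2),
      Q ω * ((sign ω p.1 : ℝ) * mass ω (f ω) p.1 * ((sign ω p.2 : ℝ) * mass ω (g ω) p.2)) = 0 := by
  classical
  rw [Finset.sum_sigma']
  refine Finset.sum_involution (fun q _ => ⟨swapOn q.2.1 q.1, q.2⟩) ?_ ?_ ?_ ?_
  · rintro ⟨ω, A, B⟩ hq
    simp only [Finset.mem_sigma, Finset.mem_filter, Finset.mem_product] at hq
    obtain ⟨hω, ⟨hA, hB⟩, hne⟩ := hq
    rw [mem_LF hω] at hA hB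
    simp only
    rw [sign_swap_neg hω hA Set.Subset.rfl, sign_swap_same (L.loops_disjoint hω hB hA (Ne.symm hne)),
      mass_swap, mass_swap, uinv_swap hQ hω (cl_loop hA), uinv_swap hf' hω (cl_loop hA),
      uinv_swap hg' hω (cl_loop hA)]
    push_cast
    ring
  · rintro ⟨ω, A, B⟩ hq hz
    simp only [Finset.mem_sigma, Finset.mem_filter, Finset.mem_product] at hq
    obtain ⟨hω, ⟨hA, hB⟩, hne⟩ := hq
    rw [mem_LF hω] at hA hB
    intro heq
    have heq1 : swapOn A ω = ω := congrArg Sigma.fst heq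
    obtain ⟨v, hv⟩ := L.loop_nonempty hA
    apply L.loop_ne hω hA hv
    have := congrArg (fun c : Conf => c.1 v) heq1
    simp only [swapOn_fst_mem hv] at this
    exact this.symm
  · rintro ⟨ω, A, B⟩ hq
    simp only [Finset.mem_sigma, Finset.mem_filter, Finset.mem_product] at hq ⊢
    obtain ⟨hω, ⟨hA, hB⟩, hne⟩ := hq
    rw [LF_swap]
    exact ⟨swap_mem hω (cl_loop ((mem_LF hω).1 hA)), ⟨hA, hB⟩, hne⟩
  · rintro ⟨ω, A, B⟩ _
    simp only
    rw [swapOn_swapOn]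

/-- **(S3), bilinear form**: given the superposition, the signs are independent and fair. -/
theorem sign_cov (Q : Conf → ℝ) (f g : Conf → Pt → ℝ) (hQ : UInv V Q) (hf' : UInv V f)
    (hg' : UInv V g) (hff : ∀ ω ∈ DD V, (f ω).support.Finite)
    (hgf : ∀ ω ∈ DD V, (g ω).support.Finite) :
    Ex V (fun ω => Q ω * (hf ω (f ω) * hf ω (g ω))) =
      Ex V (fun ω => Q ω * ∑ L ∈ LF ω, mass ω (f ω) L * mass ω (g ω) L) := by
  classical
  unfold Ex
  congr 1
  have e1 : ∀ ω ∈ DD V, Q ω * (hf ω (f ω) * hf ω (g ω)) =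
      Q ω * ∑ L ∈ LF ω, mass ω (f ω) L * mass ω (g ω) L +
      ∑ p ∈ ((LF ω) ×ˢ (LF ω)).filter (fun p => p.1 ≠ p.2),
      Q ω * ((sign ω p.1 : ℝ) * mass ω (f ω) p.1 * ((sign ω p.2 : ℝ) * mass ω (g ω) p.2)) := by
    intro ω hω
    rw [hf_eq_mass hω (hff ω hω), hf_eq_mass hω (hgf ω hω), Finset.sum_mul_sum,
      ← Finset.sum_product', ← Finset.mul_sum, ← mul_add,
      ← Finset.sum_filter_add_sum_filter_not ((LF ω) ×ˢ (LF ω)) (fun p => p.1 = p.2)]
    congr 2
    symm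
    refine Finset.sum_bij (fun A _ => (A, A)) ?_ ?_ ?_ ?_
    · intro A hA
      rw [Finset.mem_filter, Finset.mem_product]
      exact ⟨⟨hA, hA⟩, rfl⟩
    · intro A _ B _ h
      exact (Prod.ext_iff.1 h).1
    · rintro ⟨A, B⟩ h
      rw [Finset.mem_filter, Finset.mem_product] at h
      obtain ⟨⟨h1, h2⟩, h3⟩ := h
      simp only at h1 h2 h3
      subst h3
      exact ⟨A, h1, rfl⟩
    · intro A hA
      have h1 : (sign ω A : ℝ) * (sign ω A : ℝ) = 1 := by
        exact_mod_cast sign_sq hω ((mem_LF hω).1 hA)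
      simp only
      linear_combination (-(mass ω (f ω) A * mass ω (g ω) A)) * h1
  rw [Finset.sum_congr rfl e1, Finset.sum_add_distrib, sum_cross Q f g hQ hf' hg', add_zero]

/-- **(S3)** second moment form -/
theorem sign_sq_moment (Q : Conf → ℝ) (f : Conf → Pt → ℝ) (hQ : UInv V Q) (hf' : UInv V f)
    (hff : ∀ ω ∈ DD V, (f ω).support.Finite) :
    Ex V (fun ω => Q ω * hf ω (f ω) ^ 2) =
      Ex V (fun ω => Q ω * ∑ L ∈ LF ω, mass ω (f ω) L ^ 2) := by
  have := sign_cov Q f f hQ hf' hf' hff hff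
  simpa only [pow_two] using this

theorem Ex_mono' {g g' : Conf → ℝ} (h : ∀ ω ∈ DD V, g ω ≤ g' ω) : Ex V g ≤ Ex V g' := by
  unfold Ex
  rw [smul_eq_mul, smul_eq_mul]
  exact mul_le_mul_of_nonneg_left (Finset.sum_le_sum h) (by positivity)

/-- **(S3)** the mass of one (possibly random) loop -/
theorem one_loop (Q : Conf → ℝ) (f : Conf → Pt → ℝ) (hQ : UInv V Q) (hQ0 : ∀ ω, 0 ≤ Q ω)
    (hf' : UInv V f) (hff : ∀ ω ∈ DD V, (f ω).support.Finite) (l : Conf → Set Pt)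
    (hl : ∀ ω ∈ DD V, Q ω ≠ 0 → l ω ∈ Loops ω) :
    Ex V (fun ω => Q ω * mass ω (f ω) (l ω) ^ 2) ≤ Ex V (fun ω => Q ω * hf ω (f ω) ^ 2) := by
  classical
  rw [sign_sq_moment Q f hQ hf' hff]
  apply Ex_mono'
  intro ω hω
  by_cases h : Q ω = 0
  · simp [h]
  · refine mul_le_mul_of_nonneg_left ?_ (hQ0 ω)
    exact Finset.single_le_sum (f := fun L => mass ω (f ω) L ^ 2) (fun _ _ => sq_nonneg _)
      ((mem_LF hω).2 (hl ω hω h))

/-- unweighted version -/
theorem one_loop' (f : Conf → Pt → ℝ)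
    (hf' : UInv V f) (hff : ∀ ω ∈ DD V, (f ω).support.Finite) (l : Conf → Set Pt)
    (hl : ∀ ω ∈ DD V, l ω ∈ Loops ω) :
    Ex V (fun ω => mass ω (f ω) (l ω) ^ 2) ≤ Ex V (fun ω => hf ω (f ω) ^ 2) := by
  have := one_loop (V := V) (fun _ => 1) f (fun _ _ _ _ _ => rfl) (fun _ => zero_le_one) hf' hff l
    (fun ω hω _ => hl ω hω)
  simpa only [one_mul] using this

end Vale.Agent.P155.T905
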