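import Vale.Agent.P155.T905.Sign
import Vale.Agent.P155.F.ChProb
import Vale.Agent.P155.A.InLoop

/-!
# P155, TIGHT, (S5): the layer lemma

A point `x` of the layer of an unexplored component, near an explored strand `c`: the loop `L`
separates `x` from the near side of `c` only if near `x` there is a second strand.
-/

namespace Vale.Agent.P155.T905

open Finset SW HT T802

/-! ### monotone walks -/

/-- `z` lies in the rectangle with corners `x`, `y` -/
def Btw (x y z : Pt) : Prop :=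
  ((x.1 ≤ z.1 ∧ z.1 ≤ y.1) ∨ (y.1 ≤ z.1 ∧ z.1 ≤ x.1)) ∧
  ((x.2 ≤ z.2 ∧ z.2 ≤ y.2) ∨ (y.2 ≤ z.2 ∧ z.2 ≤ x.2))

def l1 (x z : Pt) : ℕ := (z.1 - x.1).natAbs + (z.2 - x.2).natAbs

theorem walk {P : Pt → Prop} {x : Pt} (h0 : P x) : ∀ (n : ℕ) (y : Pt), l1 x y = n →
    (∀ z z', Adj z z' → Btw x y z → Btw x y z' → l1 x z < l1 x z' → P z → P z') → P y := by
  intro n
  induction n with
  | zero =>
    intro y hy _
    have : y = x := by
      unfold l1 at hy
      apply Prod.ext <;> omega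
    rw [this]; exact h0
  | succ n ih =>
    intro y hy hstep
    obtain ⟨y1, y2⟩ := y
    obtain ⟨x1, x2⟩ := x
    unfold l1 at hy
    simp only at hy
    have key : ∃ y' : Pt, Adj y' (y1, y2) ∧ l1 (x1, x2) y' = n ∧
        (∀ z, Btw (x1, x2) y' z → Btw (x1, x2) (y1, y2) z) ∧ Btw (x1, x2) (y1, y2) y' := by
      rcases lt_trichotomy x1 y1 with h | h | h
      · refine ⟨(y1 - 1, y2), ?_, ?_, ?_, ?_⟩
        · unfold Adj; simp
        · unfold l1; simp only; omega
        · intro z hz; unfold Btw at *; simp only at *; omega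
        · unfold Btw; simp only; omega
      · rcases lt_trichotomy x2 y2 with h' | h' | h'
        · refine ⟨(y1, y2 - 1), ?_, ?_, ?_, ?_⟩
          · unfold Adj; simp
          · unfold l1; simp only; omega
          · intro z hz; unfold Btw at *; simp only at *; omega
          · unfold Btw; simp only; omega
        · exfalso; omega
        · refine ⟨(y1, y2 + 1), ?_, ?_, ?_, ?_⟩
          · unfold Adj; simp
          · unfold l1; simp only; omega
          · intro z hz; unfold Btw at *; simp only at *; omega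
          · unfold Btw; simp only; omega
      · refine ⟨(y1 + 1, y2), ?_, ?_, ?_, ?_⟩
        · unfold Adj; simp
        · unfold l1; simp only; omega
        · intro z hz; unfold Btw at *; simp only at *; omega
        · unfold Btw; simp only; omega
    obtain ⟨y', ha, hl, hb, hb'⟩ := key
    refine hstep y' _ ha hb' ?_ ?_ (ih y' hl fun z z' h1 h2 h3 h4 => hstep z z' h1 (hb z h2) (hb z' h3) h4)
    · unfold Btw; simp only; omega
    · rw [hl]; unfold l1; simp only; omega

theorem mem_box' {x z : Pt} {r : ℕ} : z ∈ box x r ↔ |z.1 - x.1| ≤ r ∧ |z.2 - x.2| ≤ r := by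
  unfold box
  rw [Finset.mem_product, Finset.mem_Icc, Finset.mem_Icc, abs_le, abs_le]
  constructor
  · rintro ⟨⟨h1, h2⟩, h3, h4⟩
    refine ⟨⟨?_, ?_⟩, ?_, ?_⟩ <;> omega
  · rintro ⟨⟨h1, h2⟩, h3, h4⟩
    refine ⟨⟨?_, ?_⟩, ?_, ?_⟩ <;> omega

theorem corner_mem_corners {v f : Pt} (h : LatCycle.corner v f) : v ∈ corners f := by
  obtain ⟨h1, h2⟩ := h
  unfold corners
  simp only [Finset.mem_insert, Finset.mem_singleton]
  obtain ⟨a, b⟩ := v
  obtain ⟨c, d⟩ := f
  simp only [Prod.mk.injEq] at *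
  omega

theorem corners_box {v f x : Pt} {D : ℕ} (h : v ∈ corners f) (hf : f ∈ box x D) :
    v ∈ box x (D + 1) := by
  rw [mem_box'] at *
  unfold corners at h
  simp only [Finset.mem_insert, Finset.mem_singleton] at h
  rcases h with rfl | rfl | rfl | rfl <;> simp only [abs_le] at * <;> push_cast <;> omega

/-- the local geometry at the far side of the explored strand `c` (in the region `Rg`): `I` is the
set of faces above `c`, `L` a loop, `up` says whether the upper side of `c` lies inside `L`. -/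
structure Near (T : Temp) (ω : Conf) (E c I Rg L : Set Pt) (up : Prop) : Prop where
  sub : c ⊆ E
  step : ∀ f g, Adj f g → f ∈ I → f ∈ Rg → g ∈ Rg → ¬ Touch E f → g ∈ I
  near : ∀ f ∈ I, f ∈ Rg → Touch E f → Touch c f ∧ (surr ω L f ↔ up)
  face : Rg ⊆ T.faceSet

theorem layer_point {T : Temp} {V : Finset Pt} {ω : Conf} (hω : ω ∈ DD V) {E c I Rg L : Set Pt}
    {up : Prop} (hL : L ∈ Loops ω) (hN : Near T ω E c I Rg L up) {x : Pt} {D : ℕ}
    (hxI : x ∈ I) (hxO : x ∈ OE T E) (hbox : (box x D : Set Pt) ⊆ Rg)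
    (hnear : ∃ y, y ∉ OE T E ∧ y ∈ box x D) :
    (∃ v' ∈ c, v' ∈ box x (D + 1)) ∧
      (¬ (surr ω L x ↔ up) → ∃ v ∈ L, v ∉ E ∧ v ∈ box x (D + 1)) := by
  classical
  -- the nearest explored face
  have hex : ∃ n, ∃ y, y ∉ OE T E ∧ y ∈ box x D ∧ l1 x y = n := by
    obtain ⟨y, h1, h2⟩ := hnear
    exact ⟨l1 x y, y, h1, h2, rfl⟩
  obtain ⟨y, hyO, hyB, hyn⟩ := Nat.find_spec hex
  have hmin : ∀ z, z ∈ box x D → l1 x z < l1 x y → z ∈ OE T E := by
    intro z hz hlt
    by_contra hc
    exact Nat.find_min hex (by rw [← hyn]; exact hlt) ⟨z, hc, hz, rfl⟩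
  have hbtw : ∀ z, Btw x y z → z ∈ box x D := by
    intro z hz
    rw [mem_box'] at *
    obtain ⟨h1, h2⟩ := hz
    simp only [abs_le] at *
    omega
  have hl : ∀ z, Btw x y z → l1 x z ≤ l1 x y := by
    intro z hz
    obtain ⟨h1, h2⟩ := hz
    unfold l1
    omega
  have hxB : x ∈ box x D := by rw [mem_box']; simp
  have hunt : ∀ z ∈ OE T E, ¬ Touch E z := fun z hz => hz.2
  -- first walk: `y` is above `c`
  have hy : y ∈ I := by
    have := walk (P := fun z => z ∈ I ∧ (l1 x z < l1 x y → z ∈ OE T E)) (x := x)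
      ⟨hxI, fun _ => hxO⟩ (l1 x y) y rfl (fun z z' ha hz hz' hlt hP => ?_)
    · exact this.1
    · have hzO : z ∈ OE T E := hP.2 (lt_of_lt_of_le hlt (hl z' hz'))
      exact ⟨hN.step z z' ha hP.1 (hbox (by exact_mod_cast hbtw z hz))
        (hbox (by exact_mod_cast hbtw z' hz')) (hunt z hzO), fun h => hmin z' (hbtw z' hz') h⟩
  have hyR : y ∈ Rg := hbox (by exact_mod_cast hyB)
  have hyT : Touch E y := by
    by_contra hc
    exact hyO ⟨hN.face hyR, hc⟩
  obtain ⟨⟨v', hv', hv'c⟩, hup⟩ := hN.near y hy hyR hyT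
  refine ⟨⟨v', hv'c, corners_box hv' hyB⟩, fun hne => ?_⟩
  by_contra hno
  push Not at hno
  apply hne
  rw [← hup]
  -- second walk: `surr` does not change
  have := walk (P := fun z => (surr ω L z ↔ surr ω L x) ∧ (l1 x z < l1 x y → z ∈ OE T E)) (x := x)
      ⟨Iff.rfl, fun _ => hxO⟩ (l1 x y) y rfl (fun z z' ha hz hz' hlt hP => ?_)
  · exact this.1.symm
  · have hzO : z ∈ OE T E := hP.2 (lt_of_lt_of_le hlt (hl z' hz'))
    refine ⟨?_, fun h => hmin z' (hbtw z' hz') h⟩
    rw [← hP.1]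
    have aux : ∀ a b, a ∈ box x D → Adj a b → (¬ Touch E a ∨ ¬ Touch E b) → surr ω L a →
        surr ω L b := by
      intro a b haB hab hun hsa
      by_contra hsb
      obtain ⟨u, v, hu, hv, _, _, hs1, hs2, _, _⟩ := A1.L_step hω hL hab hsa hsb
      have huE : u ∉ E := by
        intro huE
        rcases hun with h | h
        · exact h ⟨u, corner_mem_corners hs1.1, huE⟩
        · exact h ⟨u, corner_mem_corners hs2.1, huE⟩
      exact hno u hu huE (corners_box (corner_mem_corners hs1.1) haB)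
    have hz1 := hbtw z hz
    have hz2 := hbtw z' hz'
    constructor
    · exact fun h => aux z' z hz2 (SW.adj_symm ha) (Or.inr (hunt z hzO)) h
    · exact fun h => aux z z' hz1 ha (Or.inl (hunt z hzO)) h

/-! ### two strands -/

theorem res_step {V B : Finset Pt} {ω : Conf} {a b : Pt}
    (h : b = (res V B ω).1 a ∨ b = (res V B ω).2 a) :
    b = a ∨ (b ∈ B ∧ (b = ω.1 a ∨ b = ω.2 a)) := by
  classical
  have key : ∀ m : Pt → Pt, E1.cutTo (Vin V B m) m a = a ∨
      (E1.cutTo (Vin V B m) m a ∈ B ∧ E1.cutTo (Vin V B m) m a = m a) := by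
    intro m
    unfold E1.cutTo
    by_cases hv : a ∈ Vin V B m
    · rw [if_pos hv]
      right
      refine ⟨?_, rfl⟩
      unfold Vin at hv
      exact (Finset.mem_filter.1 hv).2.2
    · rw [if_neg hv]; exact Or.inl rfl
  rcases h with rfl | rfl
  · rcases key ω.1 with h | ⟨h1, h2⟩
    · exact Or.inl h
    · exact Or.inr ⟨h1, Or.inl h2⟩
  · rcases key ω.2 with h | ⟨h1, h2⟩
    · exact Or.inl h
    · exact Or.inr ⟨h1, Or.inr h2⟩

/-- A set closed under the superposition off the wall is closed under the restricted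
superposition in a region without wall. -/
theorem mem_of_res {V B : Finset Pt} {ω : Conf} {W E : Set Pt} (hBW : ∀ z ∈ B, z ∉ W)
    (hE : ∀ a ∈ E, ∀ b, b ∉ W → (b = ω.1 a ∨ b = ω.2 a) → b ∈ E) {u v : Pt}
    (h : Same (res V B ω) u v) (hu : u ∈ E) : v ∈ E := by
  induction h with
  | refl => exact hu
  | tail _ hs ih =>
    rcases res_step hs with rfl | ⟨h1, h2⟩
    · exact ih
    · exact hE _ ih _ (hBW _ h1) h2

/-- **two different strands** -/
theorem two_strands {V B : Finset Pt} {ω : Conf} (hω : ω ∈ DD V) {W E : Set Pt}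
    (hBW : ∀ z ∈ B, z ∉ W)
    (hE : ∀ a ∈ E, ∀ b, b ∉ W → (b = ω.1 a ∨ b = ω.2 a) → b ∈ E) {v v' p p' : Pt}
    (hv : v ∉ E) (hv' : v' ∈ E) (h1 : Same ω v p) (hp : p ∉ B) (h2 : Same ω v' p') (hp' : p' ∉ B)
    {A0 : Finset Pt} (hvA : v ∈ A0) (hvA' : v' ∈ A0) :
    TwoVisit (fun _ : Fin 1 => A0) (res V B ω) := by
  have hinv : Inv2 (res V B ω) := by
    have hω' := Finset.mem_product.1 hω
    have h1 := mem_PM.1 hω'.1
    have h2 := mem_PM.1 hω'.2
    exact ⟨(E1.cutTo_PM h1 (Finset.filter_subset _ _) (fun v hv => by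
        simp only [Vin, Finset.mem_filter] at hv ⊢
        exact ⟨SW.pm_mem h1 hv.1, hv.2.2, by rw [h1.invol]; exact hv.2.1⟩)).invol,
      (E1.cutTo_PM h2 (Finset.filter_subset _ _) (fun v hv => by
        simp only [Vin, Finset.mem_filter] at hv ⊢
        exact ⟨SW.pm_mem h2 hv.1, hv.2.2, by rw [h2.invol]; exact hv.2.1⟩)).invol⟩
  obtain ⟨z, hz, hzo⟩ := open_of_leaves (V := V) (B := B) h1 hp
  obtain ⟨z', hz', hzo'⟩ := open_of_leaves (V := V) (B := B) h2 hp'
  refine ⟨z, z', hzo, hzo', fun hs => ?_, fun _ => ⟨⟨v, hvA, same_symm hinv hz⟩,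
    ⟨v', hvA', same_symm hinv hz'⟩⟩⟩
  apply hv
  have h3 : Same (res V B ω) v' v :=
    same_trans (same_trans hz' (same_symm hinv hs)) (same_symm hinv hz)
  exact mem_of_res hBW hE h3 hv'

/-! ### the layer lemma -/

open Classical in
/-- **(S5) layer lemma.** `g` = layer function, `N` = faces above `c` where the geometry is good,
`B x` = the region around `x` in which strands are counted. -/
theorem layer_mass {T : Temp} {V : Finset Pt} {ω : Conf} (hω : ω ∈ DD V)
    {W E c I Rg L N : Set Pt} {up : Prop} (hL : L ∈ Loops ω) (hN : Near T ω E c I Rg L up)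
    (hE : ∀ a ∈ E, ∀ b, b ∉ W → (b = ω.1 a ∨ b = ω.2 a) → b ∈ E)
    {g : Pt → ℝ} {s : Finset Pt} (hs : ∀ x, x ∉ s → g x = 0) {D : ℕ} (B : Pt → Finset Pt)
    (hNI : ∀ x ∈ N, x ∈ I ∧ (box x D : Set Pt) ⊆ Rg)
    (hgO : ∀ x ∈ N, g x ≠ 0 → x ∈ OE T E ∧ ∃ y, y ∉ OE T E ∧ y ∈ box x D)
    (hBW : ∀ x ∈ N, ∀ z ∈ B x, z ∉ W)
    (hBL : ∀ x ∈ N, ∃ p ∈ L, p ∉ B x)
    (hBc : ∀ x ∈ N, ∀ v' ∈ c, ∃ p', Same ω v' p' ∧ p' ∉ B x) :
    |mass ω g L - (if up then 1 else 0) * ∑ x ∈ s, g x| ≤
      ∑ x ∈ s, |g x| * (if x ∈ N then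
        (if TwoVisit (fun _ : Fin 1 => box x (D + 1)) (res V (B x) ω) then 1 else 0) else 1) := by
  rw [mass_eq_sum hs, Finset.mul_sum, ← Finset.sum_sub_distrib]
  refine (Finset.abs_sum_le_sum_abs _ _).trans (Finset.sum_le_sum fun x _ => ?_)
  by_cases hx : x ∈ N
  · rw [if_pos hx]
    by_cases hg : g x = 0
    · simp [hg]
    · obtain ⟨hxO, hy⟩ := hgO x hx hg
      obtain ⟨⟨v', hv'c, hv'B⟩, hlay⟩ :=
        layer_point hω hL hN (hNI x hx).1 hxO (hNI x hx).2 hy
      by_cases hup : (surr ω L x ↔ up)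
      · have : g x * (if surr ω L x then (1 : ℝ) else 0) - (if up then (1 : ℝ) else 0) * g x = 0 := by
          by_cases h1 : surr ω L x
          · rw [if_pos h1, if_pos (hup.1 h1)]; ring
          · rw [if_neg h1, if_neg (fun h => h1 (hup.2 h))]; ring
        rw [this, abs_zero]
        positivity
      · obtain ⟨v, hvL, hvE, hvB⟩ := hlay hup
        obtain ⟨p, hpL, hpB⟩ := hBL x hx
        obtain ⟨p', hs', hp'B⟩ := hBc x hx v' hv'c
        have h1 : Same ω v p := by
          obtain ⟨u, hu, rfl⟩ := hL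
          have hinv : Inv2 ω := by
            have hω' := Finset.mem_product.1 hω
            exact ⟨(mem_PM.1 hω'.1).invol, (mem_PM.1 hω'.2).invol⟩
          exact same_trans (same_symm hinv hvL) hpL
        have htv := two_strands hω (hBW x hx) hE hvE (hN.sub hv'c) h1 hpB hs' hp'B hvB hv'B
        rw [if_pos htv, mul_one]
        have : g x * (if surr ω L x then (1 : ℝ) else 0) - (if up then (1 : ℝ) else 0) * g x =
            g x * ((if surr ω L x then (1 : ℝ) else 0) - (if up then (1 : ℝ) else 0)) := by ring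
        rw [this, abs_mul]
        refine mul_le_of_le_one_right (abs_nonneg _) ?_
        split_ifs <;> simp
  · rw [if_neg hx, mul_one]
    have : g x * (if surr ω L x then (1 : ℝ) else 0) - (if up then (1 : ℝ) else 0) * g x =
        g x * ((if surr ω L x then (1 : ℝ) else 0) - (if up then (1 : ℝ) else 0)) := by ring
    rw [this, abs_mul]
    refine mul_le_of_le_one_right (abs_nonneg _) ?_
    split_ifs <;> simp

end Vale.Agent.P155.T905
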