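import Vale.Agent.P155.T905.Layer
import Vale.Agent.P155.H904.PT3

/-!
# P155, TIGHT, (S5): one evaluation, deterministic part
-/

namespace Vale.Agent.P155.T905

open Finset SW HT T802 J H904 H12 G45

/-- a family of bumps near the points `p i` off `O` -/
structure BumpSys {m : ℕ} (O : Set Pt) (hO : O.Finite) (p : Fin m → Pt) (b : Fin m → Pt → ℝ)
    (N : Fin m → Set Pt) (ρ d : ℕ) : Prop where
  off : ∀ i, p i ∉ O
  nonneg : ∀ i x, 0 ≤ b i x
  sum : ∀ i, ∑ x ∈ hO.toFinset, b i x = 1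
  near : ∀ i x, b i x ≠ 0 → dn (p i) x ≤ ρ
  supp : ∀ i x, b i x ≠ 0 → x ∈ N i
  nb : ∀ i, IsNb O (p i) d (N i)

theorem fL_zero_off {O : Set Pt} (hO : O.Finite) {s : ℕ} (hs : 1 ≤ s) {C0 : ℝ} {φ u χ : Pt → ℝ}
    (hχ : IsCut O s C0 χ) (hu : IsGreen O φ u) : ∀ x, x ∉ hO.toFinset → fL O φ χ u x = 0 := by
  intro x hx
  by_contra h
  exact hx (by rw [Set.Finite.mem_toFinset]; exact (fL_supp (exists_notMem hO) hs hχ hu h).1)

open Classical in
/-- **(S5) one evaluation, deterministic.** `L` a loop, `φ = m⁻¹ ∑ b i` with mass near the far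
side of the explored strand `c`. -/
theorem eval_det : ∃ β : ℝ, 0 < β ∧ ∃ K : ℝ, 0 < K ∧
    ∀ (T : Temp) (V : Finset Pt) (ω : Conf), ω ∈ DD V → ∀ (W E c I Rg L : Set Pt) (up : Prop),
    L ∈ Loops ω → Near T ω E c I Rg L up →
    (∀ a ∈ E, ∀ b, b ∉ W → (b = ω.1 a ∨ b = ω.2 a) → b ∈ E) →
    ∀ (hO : (OE T E).Finite), CPr (OE T E) → ∀ (m : ℕ) (p : Fin m → Pt) (b : Fin m → Pt → ℝ)
      (N : Fin m → Set Pt) (ρ d s D : ℕ) (C0 : ℝ) (χ u : Pt → ℝ) (v : Fin m → Pt → ℝ)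
      (B : Pt → Finset Pt), 1 ≤ m →
    BumpSys (OE T E) hO p b N ρ d → 1 ≤ s → s ≤ ρ → 3 * ρ ≤ d → IsCut (OE T E) s C0 χ →
    IsGreen (OE T E) (fun x => (m : ℝ)⁻¹ * ∑ i, b i x) u → (∀ i, IsGreen (OE T E) (b i) (v i)) →
    2 * s + 1 ≤ D →
    (∀ i, ∀ x ∈ N i, x ∈ I ∧ (box x D : Set Pt) ⊆ Rg ∧ (∀ z ∈ B x, z ∉ W) ∧
      (∃ q ∈ L, q ∉ B x) ∧ (∀ v' ∈ c, ∃ q, Same ω v' q ∧ q ∉ B x)) →
    |mass ω (fun x => (m : ℝ)⁻¹ * ∑ i, b i x) L - (if up then 1 else 0)| ≤
      |mass ω (lap (fun y => χ y * u y)) L| +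
      K * (C0 + 1) * (((ρ : ℝ) + 1) / ((d : ℝ) + 1)) ^ β +
      (m : ℝ)⁻¹ * ∑ i, ∑ x ∈ hO.toFinset, |fL (OE T E) (b i) χ (v i) x| *
        (if x ∈ N i ∧ TwoVisit (fun _ : Fin 1 => box x (D + 1)) (res V (B x) ω) then 1 else 0) := by
  obtain ⟨β, hβ, K, hK, hpt⟩ := pt1
  refine ⟨β, hβ, K, hK, ?_⟩
  intro T V ω hω W E c I Rg L up hL hNear hE hO hCP m p b N ρ d s D C0 χ u v B hm hB hs hsρ hρd hχ
    hu hv hD hgeo
  set O := OE T E with hOdef
  have hm0 : (0 : ℝ) < m := by exact_mod_cast hm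
  -- one bump
  have h1 : ∀ i, |mass ω (fL O (b i) χ (v i)) L - (if up then 1 else 0)| ≤
      K * (C0 + 1) * (((ρ : ℝ) + 1) / ((d : ℝ) + 1)) ^ β +
      ∑ x ∈ hO.toFinset, |fL O (b i) χ (v i) x| *
        (if x ∈ N i ∧ TwoVisit (fun _ : Fin 1 => box x (D + 1)) (res V (B x) ω) then 1 else 0) := by
    intro i
    have hz := fL_zero_off hO hs hχ (hv i)
    have hlay := layer_mass hω (N := N i) hL hNear hE hz (D := D) B
      (fun x hx => ⟨(hgeo i x hx).1, (hgeo i x hx).2.1⟩) (fun x hx hne => ?_)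
      (fun x hx => (hgeo i x hx).2.2.1) (fun x hx => (hgeo i x hx).2.2.2.1)
      (fun x hx => (hgeo i x hx).2.2.2.2)
    · rw [fL_total hO hs hχ (hv i) (by simp), hB.sum i, mul_one] at hlay
      refine hlay.trans ?_
      have hout := (hpt O hO hCP (p i) (N i) ρ d s C0 (b i) (v i) χ (hB.off i) (hB.nb i) hs hsρ hρd
        hχ (hv i) (fun x _ => hB.nonneg i x) (fun x _ h => hB.near i x h)
        (fun x _ h => hB.supp i x h)).1 (hO.toFinset.filter (fun x => x ∉ N i))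
        (fun x hx => (Finset.mem_filter.1 hx).2)
      rw [hB.sum i, mul_one] at hout
      rw [Finset.sum_filter] at hout
      refine le_trans ?_ (add_le_add hout le_rfl)
      rw [← Finset.sum_add_distrib]
      apply Finset.sum_le_sum
      intro x _
      by_cases hx : x ∈ N i
      · simp [hx]
      · simp [hx]
    · obtain ⟨ha, hb⟩ := fL_supp (exists_notMem hO) hs hχ (hv i) hne
      obtain ⟨y, hy, hxy⟩ := exists_dF (exists_notMem hO) x
      refine ⟨ha, y, hy, ?_⟩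
      have hbx : y ∈ box x (dn x y) := by
        rw [mem_box', abs_sub_comm y.1, abs_sub_comm y.2]
        unfold dn dinf
        constructor <;> omega
      have hmono : box x (dn x y) ⊆ box x D := by
        intro z hz
        rw [mem_box'] at *
        constructor <;> omega
      exact hmono hbx
  -- the mean of the layer functions
  have hmf : ∀ x, fL O (fun y => (m : ℝ)⁻¹ * ∑ i, b i y) χ u x =
      (m : ℝ)⁻¹ * ∑ i, fL O (b i) χ (v i) x := by
    intro x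
    have hmean : IsGreen O (fun x => (m : ℝ)⁻¹ * ∑ i, b i x) (fun x => (m : ℝ)⁻¹ * ∑ i, v i x) := by
      constructor
      · intro x hx
        rw [Finset.sum_eq_zero (fun i _ => (hv i).off x hx), mul_zero]
      · intro x hx
        have : lap (fun x => (m : ℝ)⁻¹ * ∑ i, v i x) x = (m : ℝ)⁻¹ * ∑ i, lap (v i) x := by
          unfold lap
          simp only [Finset.sum_add_distrib, Finset.sum_sub_distrib, ← Finset.mul_sum]
          ring
        rw [this, ← mul_neg, ← Finset.sum_neg_distrib]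
        congr 1
        exact Finset.sum_congr rfl fun i _ => (hv i).eq x hx
    have huu : u = fun x => (m : ℝ)⁻¹ * ∑ i, v i x := green_unique hO hu hmean
    rw [huu, fL_mean]
  have hz := fL_zero_off hO hs hχ hu
  have hφz : ∀ x, x ∉ hO.toFinset → (m : ℝ)⁻¹ * ∑ i, b i x = 0 := by
    intro x hx
    rw [Finset.sum_eq_zero, mul_zero]
    intro i _
    by_contra h
    exact hx (by rw [Set.Finite.mem_toFinset]; exact (hB.nb i).sub (hB.supp i x h))
  have hlapz : ∀ x, x ∉ hO.toFinset → lap (fun y => χ y * u y) x = 0 := by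
    intro x hx
    have h2 := hz x hx
    unfold fL at h2
    rw [Set.Finite.mem_toFinset] at hx
    rw [if_neg hx, zero_add] at h2
    exact h2
  have hsplit : mass ω (fun x => (m : ℝ)⁻¹ * ∑ i, b i x) L =
      mass ω (fL O (fun y => (m : ℝ)⁻¹ * ∑ i, b i y) χ u) L -
        mass ω (lap (fun y => χ y * u y)) L := by
    rw [mass_eq_sum hφz, mass_eq_sum hz, mass_eq_sum hlapz, ← Finset.sum_sub_distrib]
    refine Finset.sum_congr rfl fun x hx => ?_
    rw [Set.Finite.mem_toFinset] at hx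
    unfold fL
    rw [if_pos hx]
    ring
  have hmass : mass ω (fL O (fun y => (m : ℝ)⁻¹ * ∑ i, b i y) χ u) L =
      (m : ℝ)⁻¹ * ∑ i, mass ω (fL O (b i) χ (v i)) L := by
    rw [mass_eq_sum hz]
    have : ∀ i, mass ω (fL O (b i) χ (v i)) L = ∑ x ∈ hO.toFinset,
        fL O (b i) χ (v i) x * (if surr ω L x then 1 else 0) := fun i =>
      mass_eq_sum (fL_zero_off hO hs hχ (hv i)) ω L
    simp only [this, hmf]
    rw [Finset.sum_comm, Finset.mul_sum]
    refine Finset.sum_congr rfl fun x _ => ?_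
    rw [mul_assoc, Finset.sum_mul]
  have hup : (if up then (1 : ℝ) else 0) = (m : ℝ)⁻¹ * ∑ i : Fin m, (if up then (1 : ℝ) else 0) := by
    rw [Finset.sum_const, Finset.card_univ, Fintype.card_fin, nsmul_eq_mul, ← mul_assoc,
      inv_mul_cancel₀ hm0.ne', one_mul]
  rw [hsplit, hmass]
  have h2 : |(m : ℝ)⁻¹ * ∑ i, mass ω (fL O (b i) χ (v i)) L - (if up then (1 : ℝ) else 0)| ≤
      (m : ℝ)⁻¹ * ∑ i : Fin m, (K * (C0 + 1) * (((ρ : ℝ) + 1) / ((d : ℝ) + 1)) ^ β +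
      ∑ x ∈ hO.toFinset, |fL O (b i) χ (v i) x| *
        (if x ∈ N i ∧ TwoVisit (fun _ : Fin 1 => box x (D + 1)) (res V (B x) ω) then 1 else 0)) := by
    conv_lhs => rw [hup]
    rw [← mul_sub, ← Finset.sum_sub_distrib, abs_mul, abs_of_pos (inv_pos.2 hm0)]
    apply mul_le_mul_of_nonneg_left _ (inv_pos.2 hm0).le
    exact (Finset.abs_sum_le_sum_abs _ _).trans (Finset.sum_le_sum fun i _ => h1 i)
  rw [Finset.sum_add_distrib, mul_add, Finset.sum_const, Finset.card_univ, Fintype.card_fin,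
    nsmul_eq_mul, ← mul_assoc, inv_mul_cancel₀ hm0.ne', one_mul] at h2
  have h3 : |(m : ℝ)⁻¹ * ∑ i, mass ω (fL O (b i) χ (v i)) L -
      mass ω (lap (fun y => χ y * u y)) L - (if up then (1 : ℝ) else 0)| ≤
      |mass ω (lap (fun y => χ y * u y)) L| +
      |(m : ℝ)⁻¹ * ∑ i, mass ω (fL O (b i) χ (v i)) L - (if up then (1 : ℝ) else 0)| := by
    have := abs_sub ((m : ℝ)⁻¹ * ∑ i, mass ω (fL O (b i) χ (v i)) L - (if up then (1 : ℝ) else 0))
      (mass ω (lap (fun y => χ y * u y)) L)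
    have e : (m : ℝ)⁻¹ * ∑ i, mass ω (fL O (b i) χ (v i)) L -
      mass ω (lap (fun y => χ y * u y)) L - (if up then (1 : ℝ) else 0) =
      (m : ℝ)⁻¹ * ∑ i, mass ω (fL O (b i) χ (v i)) L - (if up then (1 : ℝ) else 0) -
      mass ω (lap (fun y => χ y * u y)) L := by ring
    rw [e]
    linarith
  linarith

end Vale.Agent.P155.T905
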