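import Vale.Agent.P155.E3.MESD
import Vale.Agent.P155.C276.Height
import Vale.Agent.P155.B.DomMain

/-!
# P155, TIGHT: `ME_SD` with a cut-off which is a function of `(O, φ, u)` only

Copy of helper613's proof of `ME_SD` (E3/MESD.lean) with the quantifiers in another order: the
cut-off does not depend on the configuration nor on the exploration, so that `h(Δ(χ u))` is the
pairing with an unsigned-invariant function when `O, φ, u` are.
-/

namespace Vale.Agent.P155.T905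

open Finset Skel J E E3 Filter

/-- `ME_SD` with an explicit cut-off function -/
def ME_SDu : Prop := ∀ C0 p a : ℝ, 0 < a → a ≤ 1 / 2 → ∃ c > (0 : ℝ), ∃ C : ℝ, 0 ≤ C ∧
  ∃ R0 : ℕ, 1 ≤ R0 ∧ ∀ R : ℕ, R0 ≤ R → ∀ T : Temp, Fits T R → ∃ B : Conf → ℝ,
  (∀ ω, 0 ≤ B ω) ∧ Ex T.V B ≤ C * (R : ℝ) ^ (-p) ∧
  ∃ χ : Set Pt → (Pt → ℝ) → (Pt → ℝ) → Pt → ℝ, ∀ (O : Set Pt) (φ u : Pt → ℝ),
  O ⊆ T.faceSet → CP O → IsBump (0, 0) R (C0 / (R : ℝ) ^ 2) φ → IsGreen O φ u →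
  IsCut O ⌈(R : ℝ) ^ a⌉₊ C (χ O φ u) ∧
  ∀ X : Expl, IsExpl T.V X → ∀ ω ∈ DD T.V,
  (∀ v : Pt, (∀ f : Pt, v.1 - 1 ≤ f.1 → f.1 ≤ v.1 → v.2 - 1 ≤ f.2 → f.2 ≤ v.2 → f ∈ O) →
      v ∈ (X ω).1 ∧ v ∈ (X ω).2) →
    |cEx T.V X (fun ω' => hf ω' (lap (fun y => χ O φ u y * u y))) ω| ≤
      C * (R : ℝ) ^ (-c) + cEx T.V X B ω ∧
    |cEx T.V X (fun ω' => (hf ω' (lap (fun y => χ O φ u y * u y))) ^ 2) ω -
      2 / Real.pi * pair φ u| ≤ C * (R : ℝ) ^ (-c) + cEx T.V X B ω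

theorem me_sdu (hI : E_incr) (hM : E_meas) (hL : E_loc) : ME_SDu := by
  classical
  intro C0 p a ha ha2
  by_cases hC0 : 0 ≤ C0
  swap
  · refine ⟨1, one_pos, 0, le_rfl, 1, le_rfl, fun R hR1 T _ =>
      ⟨fun _ => 0, fun _ => le_rfl, ?_, fun _ _ _ _ => 0, fun O φ u _ _ hφ => ?_⟩⟩
    · rw [zero_mul]
      exact Ex_le_const le_rfl (fun _ _ => le_rfl)
    · exfalso
      have h1 := IsBump.nonneg hφ
      have h2 : C0 / (R : ℝ) ^ 2 < 0 := by
        apply div_neg_of_neg_of_pos (not_le.1 hC0)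
        have : (0 : ℝ) < R := by exact_mod_cast hR1
        positivity
      linarith
  obtain ⟨β, hβ, hdec⟩ := decay_scaled G45.g_decay
  obtain ⟨Cd, hCd, hdec⟩ := hdec C0 hC0
  obtain ⟨CW0, hW⟩ := G45.w_final C0
  set CW := max CW0 0 with hCWdef
  have hCW : 0 ≤ CW := le_max_right _ _
  obtain ⟨βs, hβs, hSD, hOut⟩ := G1.decay
  obtain ⟨γ, hγ, hγ1, hmb⟩ := H12.mass_bounds hβs (by norm_num) hSD hOut
  obtain ⟨Mm, hMm, hmb⟩ := hmb (max C0 CW)
  set κ := min (min (a / 40) (γ / 40)) (1 / 800) with hκdef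
  have hκ : 0 < κ := lt_min (lt_min (by linarith) (by linarith)) (by norm_num)
  have hκa : κ ≤ a / 40 := (min_le_left _ _).trans (min_le_left _ _)
  have hκγ : κ ≤ γ / 40 := (min_le_left _ _).trans (min_le_right _ _)
  have hκ8 : κ ≤ 1 / 800 := min_le_right _ _
  obtain ⟨n0, CE, hCE, hE⟩ := loc_events hL (κ := κ) (a := a / 2) (p := p + 15) hκ
    (by linarith) (by linarith)
  obtain ⟨R1, hR11, hpar⟩ := params hκ hκa (by linarith) ha2
  set γ1 : ℝ := min (a / 4) (1 / 40) with hγ1def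
  have hγ1p : 0 < γ1 := lt_min (by linarith) (by norm_num)
  set K1 : ℝ := CE * CW * (1 + 2 / γ1) * (288 * CW) with hK1
  have hK10 : 0 ≤ K1 := by positivity
  set K3 : ℝ := CE * (8 * Mm * 4 ^ γ * CW ^ 2 * (1 + 10 / γ)) with hK3
  have hK30 : 0 ≤ K3 := by positivity
  set K5 : ℝ := 9 * C0 * Cd + Cd * Mm with hK5
  have hK50 : 0 ≤ K5 := by positivity
  set KD : ℝ := 9 * C0 * Cd * 2 ^ β + K5 * 4 ^ β with hKD
  have hKD0 : 0 ≤ KD := by positivity
  set KB : ℝ := 4000000 * (CW ^ 2 + 1) ^ 2 with hKB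
  have hKB0 : 0 ≤ KB := by positivity
  set c : ℝ := min (γ1 / 2) (min (γ / 4) (β / 2)) with hc
  have hc0 : 0 < c := lt_min (by linarith) (lt_min (by linarith) (by linarith))
  set KK : ℝ := K1 * (2 + 2 * KD) + 2 * (9 * C0 * K1 + K3) + K5 * 4 ^ β with hKK
  have hKK0 : 0 ≤ KK := by positivity
  -- large `R`
  have ev1 : ∀ᶠ R : ℕ in atTop, 2 * K1 ≤ (R : ℝ) ^ (γ1 / 2) :=
    ((tendsto_rpow_atTop (by linarith)).comp tendsto_natCast_atTop_atTop).eventually_ge_atTop _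
  have ev2 : ∀ᶠ R : ℕ in atTop, (n0 : ℝ) ≤ (R : ℝ) ^ (a / 2) :=
    ((tendsto_rpow_atTop (by linarith)).comp tendsto_natCast_atTop_atTop).eventually_ge_atTop _
  have ev3 : ∀ᶠ R : ℕ in atTop, (8 : ℝ) ≤ (R : ℝ) ^ (4 / 10 : ℝ) :=
    ((tendsto_rpow_atTop (by norm_num)).comp tendsto_natCast_atTop_atTop).eventually_ge_atTop _
  obtain ⟨R2, hR2⟩ := eventually_atTop.1 (ev1.and (ev2.and ev3))
  refine ⟨c, hc0, CW + 18 * KB * CE + K1 + KK, by positivity, max R1 R2,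
    le_trans hR11 (le_max_left _ _), ?_⟩
  intro R hRR T hfit
  obtain ⟨g1, g2, g3⟩ := hR2 R ((le_max_right _ _).trans hRR)
  have hR1 : 1 ≤ R := hR11.trans ((le_max_left _ _).trans hRR)
  have hRr : (1 : ℝ) ≤ R := by exact_mod_cast hR1
  have hR0 : (0 : ℝ) < R := by linarith
  obtain ⟨hs64, hsM, hMR, hM2, hpar⟩ := hpar R ((le_max_left _ _).trans hRR)
  set s := ⌈(R : ℝ) ^ a⌉₊ with hs
  set M := ⌊(R : ℝ) ^ (9 / 10 : ℝ)⌋₊ with hM'
  obtain ⟨G, hGp, hGg⟩ := hE R T hR1 hfit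
  have hfin : T.faceSet.Finite := fs_of_sub_box hfit
  have h2s : 2 * s ≤ M := by
    have k1 : (s : ℝ) ≤ 2 * (R : ℝ) ^ (1 / 2 : ℝ) := by
      have k2 := Nat.ceil_lt_add_one (show 0 ≤ (R : ℝ) ^ a by positivity)
      have k3 : 1 ≤ (R : ℝ) ^ (1 / 2 : ℝ) := Real.one_le_rpow hRr (by norm_num)
      have k4 : (R : ℝ) ^ a ≤ (R : ℝ) ^ (1 / 2 : ℝ) := Real.rpow_le_rpow_of_exponent_le hRr ha2
      rw [← hs] at k2
      linarith
    have k5 : 8 * (R : ℝ) ^ (1 / 2 : ℝ) ≤ (R : ℝ) ^ (9 / 10 : ℝ) := by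
      have : (R : ℝ) ^ (9 / 10 : ℝ) = (R : ℝ) ^ (4 / 10 : ℝ) * (R : ℝ) ^ (1 / 2 : ℝ) := by
        rw [← Real.rpow_add hR0]; norm_num
      rw [this]
      exact mul_le_mul_of_nonneg_right g3 (by positivity)
    have k6 : 2 * (s : ℝ) ≤ M := by linarith
    exact_mod_cast k6
  have hLG : LocGood T κ CE R G (fun n => s ≤ 16 * n) := by
    intro x n hn
    apply hGg x n
    have := (hpar n hn).1
    refine ⟨?_, this⟩
    have : (n0 : ℝ) ≤ n := g2.trans this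
    exact_mod_cast this
  refine ⟨fun ω => KB * (R : ℝ) ^ 12 * badW R G ω, fun ω => ?_, ?_, ?_⟩
  · exact mul_nonneg (by positivity) (badW_nonneg _ _ _)
  · have h1 : Ex T.V (fun ω => KB * (R : ℝ) ^ 12 * badW R G ω) =
        KB * (R : ℝ) ^ 12 * Ex T.V (badW R G) := avg_mul_left _ _ _
    rw [h1]
    have h2 := Ex_badW (R := R) hGp
    have e1 : (2 * (R : ℝ) + 1) ^ 2 ≤ (3 * R) ^ 2 :=
      pow_le_pow_left₀ (by positivity) (by linarith) 2
    have e2 : (R : ℝ) + 1 ≤ 2 * R := by linarith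
    calc KB * (R : ℝ) ^ 12 * Ex T.V (badW R G)
        ≤ KB * (R : ℝ) ^ 12 * ((3 * (R : ℝ)) ^ 2 * ((2 * R) * (CE * (R : ℝ) ^ (-(p + 15))))) := by
          apply mul_le_mul_of_nonneg_left _ (by positivity)
          refine h2.trans ?_
          gcongr
      _ = 18 * KB * CE * ((R : ℝ) ^ (15 : ℕ) * (R : ℝ) ^ (-(p + 15))) := by ring
      _ = 18 * KB * CE * (R : ℝ) ^ (-p) := by
          rw [← Real.rpow_natCast, ← Real.rpow_add hR0]
          congr 2; push_cast; ring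
      _ ≤ _ := by
          apply mul_le_mul_of_nonneg_right _ (by positivity)
          linarith
  · have hWn : ∀ (O : Set Pt) (φ u : Pt → ℝ), (O ⊆ T.faceSet ∧ CP O ∧
        IsBump (0, 0) R (C0 / (R : ℝ) ^ 2) φ ∧ IsGreen O φ u) →
        Nonempty (WData O R s M κ CW u) := fun O φ u h =>
      wdata (C0 := C0) (CW := CW) (φ := φ) (κ := κ) (le_max_left CW0 0)
        (hW R O φ u s M (fun n => ⌊(n : ℝ) ^ (1 - 3 * κ)⌋₊) hR1 (h.1.trans hfit) h.2.1 h.2.2.1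
          h.2.2.2 hs64 hsM hMR (fun n hn => ⟨(hpar n hn).2.1, (hpar n hn).2.2.1⟩)) hR1
    refine ⟨fun O φ u => if h : (O ⊆ T.faceSet ∧ CP O ∧
        IsBump (0, 0) R (C0 / (R : ℝ) ^ 2) φ ∧ IsGreen O φ u) then
        (Classical.choice (hWn O φ u h)).χ else fun _ => 0, ?_⟩
    intro O φ u hO hCP hφ hu
    have hval : (O ⊆ T.faceSet ∧ CP O ∧
        IsBump (0, 0) R (C0 / (R : ℝ) ^ 2) φ ∧ IsGreen O φ u) := ⟨hO, hCP, hφ, hu⟩
    simp only [dif_pos hval]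
    set W := Classical.choice (hWn O φ u hval) with hWdef
    refine ⟨isCut_mono W.cut (by linarith [show 0 ≤ 18 * KB * CE by positivity]), ?_⟩
    intro X hX ω hω hin
    have hOfin : O.Finite := hfin.subset hO
    have hdecu := hdec R O φ u hR1 (hO.trans hfit) hCP hu (fun y => IsBump.abs_le hφ y)
    have hmm := hmb R O s W.χ φ u hR1 (hO.trans hfit) hCP (by omega)
      (isCut_mono W.cut (le_max_right _ _)) hu (fun y => (IsBump.abs_le hφ y).trans (by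
        apply div_le_div_of_nonneg_right (le_max_left _ _) (by positivity)))
    have hpar' : ∀ n : ℕ, s ≤ 16 * n → 1 ≤ n ∧ 1 ≤ ⌊(n : ℝ) ^ (1 - 3 * κ)⌋₊ ∧
        ⌊(n : ℝ) ^ (1 - 3 * κ)⌋₊ ≤ n ∧
        (n : ℝ) ^ (1 - 3 * κ) ≤ 2 * ⌊(n : ℝ) ^ (1 - 3 * κ)⌋₊ := by
      intro n hn
      obtain ⟨p1, p2, p3, p4⟩ := hpar n hn
      exact ⟨by omega, p2, by omega, p4⟩
    set S1 : ℝ := CW * (1 + Real.log R) *
      (4 * CW * ((R : ℝ) ^ (-(a / 4)) + 67 * (R : ℝ) ^ (-(1 / 10 : ℝ)) +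
        4 * (R : ℝ) ^ (-(1 / 20 / 2) : ℝ))) with hS1def
    have hS1 : ∑ q ∈ W.I, W.H q * eSD κ (1 / 20) R (W.n q) ≤ S1 :=
      good_sum hκ hκa (by linarith) (by linarith) ha2 (by norm_num) (by norm_num) hR1 le_rfl hM2
        hpar hCW (fun q hq => ⟨(W.hn q hq).1, (W.hn q hq).2.1⟩) W.scale W.card
    have hCS : CE * S1 ≤ K1 * (R : ℝ) ^ (-(γ1 / 2)) :=
      T2_bound hγ1p (min_le_left _ _) ((min_le_right _ _).trans (by norm_num))
        ((min_le_right _ _).trans (by norm_num)) hRr hCE hCW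
    have hK1R : K1 * (R : ℝ) ^ (-(γ1 / 2)) ≤ 1 / 2 := by
      rw [Real.rpow_neg hR0.le, ← div_eq_mul_inv, div_le_iff₀ (by positivity)]
      linarith
    have hT4 := T4_bound (R := (R : ℝ)) (β := β) hRr hβ ha.le ha2 hs
    have hT4' : ((2 * s : ℝ) / R) ^ β ≤ 4 ^ β := by
      refine hT4.trans ?_
      have : (R : ℝ) ^ (-(β / 2)) ≤ 1 :=
        Real.rpow_le_one_of_one_le_of_nonpos hRr (by linarith)
      calc (4 : ℝ) ^ β * (R : ℝ) ^ (-(β / 2)) ≤ 4 ^ β * 1 :=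
            mul_le_mul_of_nonneg_left this (by positivity)
        _ = _ := mul_one _
    obtain ⟨m1, m2⟩ := me_atom hI hM hX hω hR1 hfit hO hin W hCE hCW hMR hLG hpar' hκ (by omega)
      h2s hC0 hCd hβ hMm hφ hu hdecu hmm.1 hmm.2 hS1 (hCS.trans hK1R) hT4'
    have hBB0 : 0 ≤ cEx T.V X (badW R G) ω := cEx_nonneg (fun _ _ => badW_nonneg _ _ _)
    have hcB : cEx T.V X (fun ω => KB * (R : ℝ) ^ 12 * badW R G ω) ω =
        KB * (R : ℝ) ^ 12 * cEx T.V X (badW R G) ω := cEx_const_mul _ _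
    rw [hcB]
    have hRc : (R : ℝ) ^ (-(γ1 / 2)) ≤ (R : ℝ) ^ (-c) :=
      Real.rpow_le_rpow_of_exponent_le hRr (by linarith [min_le_left (γ1 / 2) (min (γ / 4) (β / 2))])
    have hRc2 : (R : ℝ) ^ (-(γ / 4)) ≤ (R : ℝ) ^ (-c) :=
      Real.rpow_le_rpow_of_exponent_le hRr (by
        have := (min_le_right (γ1 / 2) (min (γ / 4) (β / 2))).trans (min_le_left _ _)
        linarith)
    have hRc3 : (R : ℝ) ^ (-(β / 2)) ≤ (R : ℝ) ^ (-c) :=
      Real.rpow_le_rpow_of_exponent_le hRr (by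
        have := (min_le_right (γ1 / 2) (min (γ / 4) (β / 2))).trans (min_le_right _ _)
        linarith)
    have hRc0 : 0 ≤ (R : ℝ) ^ (-c) := by positivity
    have hCS' : CE * S1 ≤ K1 * (R : ℝ) ^ (-c) :=
      hCS.trans (mul_le_mul_of_nonneg_left hRc hK10)
    have hKBCE : 0 ≤ 18 * KB * CE := by positivity
    constructor
    · refine fin1 m1 hCS' ?_ ?_ hRc0 hBB0 rfl
      · exact mul_le_mul (kb1 CW) (pow_le_pow_right₀ hRr (by norm_num)) (by positivity) hKB0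
      · linarith only [hKBCE, hKK0, hCW, hK10]
    · have hlay := layer_num (R := (R : ℝ)) (s := s) (Mm := Mm) (CW := CW) (κ := κ) (γ := γ) hRr
        ha.le ha2 hκ (by linarith) hκγ hs hMm hCW
      refine fin2 (K3 := K3) (K54 := K5 * 4 ^ β) m2 hCS' (by positivity) (by positivity) ?_ ?_ ?_ ?_
        hRc0 hBB0 rfl
      · calc CE * (Mm * ((s : ℝ) / R) ^ γ * (R : ℝ) ^ κ *
              (CW * (1 + Real.log R) * (4 * CW * (s : ℝ) ^ (6 * κ))))
            ≤ CE * (8 * Mm * 4 ^ γ * CW ^ 2 * (1 + 10 / γ) * (R : ℝ) ^ (-c)) := by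
              apply mul_le_mul_of_nonneg_left _ hCE
              refine hlay.trans ?_
              exact mul_le_mul_of_nonneg_left hRc2 (by positivity)
          _ = _ := by rw [hK3]; ring
      · calc K5 * ((2 * s : ℝ) / R) ^ β ≤ K5 * (4 ^ β * (R : ℝ) ^ (-c)) := by
              apply mul_le_mul_of_nonneg_left _ hK50
              refine hT4.trans ?_
              exact mul_le_mul_of_nonneg_left hRc3 (by positivity)
          _ = _ := by ring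
      · exact mul_le_mul_of_nonneg_right (kb2 CW) (by positivity)
      · rw [hKK, hKD]
        linarith only [hKBCE, hCW, hK10]


theorem me_sdu' : ME_SDu :=
  me_sdu E1.e_incr e_meas (e_loc_of_height (C276.c_height B1b.B_plane Dom.b_dom))

end Vale.Agent.P155.T905
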